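import Vale.Agent.P154.T4.Chk28
import Vale.Agent.P154.T4.Chk29

/-! # P154 q = 4: kernel checks for the closure certificate on `T × T` -/

namespace Vale.Agent.P154.T4

open Vale.Agent.Util.Polya Vale.Agent.P154

set_option maxRecDepth 100000

theorem check_append' {w S D : ℕ} {L : List (PE × PE)} {r0 n r1 m : ℕ}
    (h1 : check w S D L r0 n = true) (h2 : check w S D L r1 m = true) (e1 : r1 = r0 + n) (k : ℕ)
    (e2 : k = n + m) : check w S D L r0 k = true := by
  subst e1 e2
  exact check_append h1 h2

theorem hgood : good 14 14 152 cert = true := by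
  decide +kernel

theorem hbnd : 2 * bnd cert < 2 ^ 152 := by
  decide +kernel

theorem hchk : check 152 15 14 cert 0 (15 * 15) = true := by
  have h0 := hchk0
  have h1 := check_append' h0 hchk1 (by norm_num) 2 (by norm_num)
  have h2 := check_append' h1 hchk2 (by norm_num) 3 (by norm_num)
  have h3 := check_append' h2 hchk3 (by norm_num) 4 (by norm_num)
  have h4 := check_append' h3 hchk4 (by norm_num) 5 (by norm_num)
  have h5 := check_append' h4 hchk5 (by norm_num) 6 (by norm_num)
  have h6 := check_append' h5 hchk6 (by norm_num) 7 (by norm_num)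
  have h7 := check_append' h6 hchk7 (by norm_num) 8 (by norm_num)
  have h8 := check_append' h7 hchk8 (by norm_num) 9 (by norm_num)
  have h9 := check_append' h8 hchk9 (by norm_num) 10 (by norm_num)
  have h10 := check_append' h9 hchk10 (by norm_num) 11 (by norm_num)
  have h11 := check_append' h10 hchk11 (by norm_num) 13 (by norm_num)
  have h12 := check_append' h11 hchk12 (by norm_num) 15 (by norm_num)
  have h13 := check_append' h12 hchk13 (by norm_num) 16 (by norm_num)
  have h14 := check_append' h13 hchk14 (by norm_num) 17 (by norm_num)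
  have h15 := check_append' h14 hchk15 (by norm_num) 18 (by norm_num)
  have h16 := check_append' h15 hchk16 (by norm_num) 19 (by norm_num)
  have h17 := check_append' h16 hchk17 (by norm_num) 20 (by norm_num)
  have h18 := check_append' h17 hchk18 (by norm_num) 21 (by norm_num)
  have h19 := check_append' h18 hchk19 (by norm_num) 22 (by norm_num)
  have h20 := check_append' h19 hchk20 (by norm_num) 23 (by norm_num)
  have h21 := check_append' h20 hchk21 (by norm_num) 24 (by norm_num)
  have h22 := check_append' h21 hchk22 (by norm_num) 25 (by norm_num)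
  have h23 := check_append' h22 hchk23 (by norm_num) 27 (by norm_num)
  have h24 := check_append' h23 hchk24 (by norm_num) 30 (by norm_num)
  have h25 := check_append' h24 hchk25 (by norm_num) 31 (by norm_num)
  have h26 := check_append' h25 hchk26 (by norm_num) 32 (by norm_num)
  have h27 := check_append' h26 hchk27 (by norm_num) 33 (by norm_num)
  have h28 := check_append' h27 hchk28 (by norm_num) 34 (by norm_num)
  have h29 := check_append' h28 hchk29 (by norm_num) 35 (by norm_num)
  have h30 := check_append' h29 hchk30 (by norm_num) 36 (by norm_num)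
  have h31 := check_append' h30 hchk31 (by norm_num) 37 (by norm_num)
  have h32 := check_append' h31 hchk32 (by norm_num) 38 (by norm_num)
  have h33 := check_append' h32 hchk33 (by norm_num) 39 (by norm_num)
  have h34 := check_append' h33 hchk34 (by norm_num) 41 (by norm_num)
  have h35 := check_append' h34 hchk35 (by norm_num) 45 (by norm_num)
  have h36 := check_append' h35 hchk36 (by norm_num) 46 (by norm_num)
  have h37 := check_append' h36 hchk37 (by norm_num) 47 (by norm_num)
  have h38 := check_append' h37 hchk38 (by norm_num) 48 (by norm_num)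
  have h39 := check_append' h38 hchk39 (by norm_num) 49 (by norm_num)
  have h40 := check_append' h39 hchk40 (by norm_num) 50 (by norm_num)
  have h41 := check_append' h40 hchk41 (by norm_num) 51 (by norm_num)
  have h42 := check_append' h41 hchk42 (by norm_num) 52 (by norm_num)
  have h43 := check_append' h42 hchk43 (by norm_num) 53 (by norm_num)
  have h44 := check_append' h43 hchk44 (by norm_num) 55 (by norm_num)
  have h45 := check_append' h44 hchk45 (by norm_num) 60 (by norm_num)
  have h46 := check_append' h45 hchk46 (by norm_num) 61 (by norm_num)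
  have h47 := check_append' h46 hchk47 (by norm_num) 62 (by norm_num)
  have h48 := check_append' h47 hchk48 (by norm_num) 63 (by norm_num)
  have h49 := check_append' h48 hchk49 (by norm_num) 64 (by norm_num)
  have h50 := check_append' h49 hchk50 (by norm_num) 65 (by norm_num)
  have h51 := check_append' h50 hchk51 (by norm_num) 66 (by norm_num)
  have h52 := check_append' h51 hchk52 (by norm_num) 67 (by norm_num)
  have h53 := check_append' h52 hchk53 (by norm_num) 69 (by norm_num)
  have h54 := check_append' h53 hchk54 (by norm_num) 75 (by norm_num)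
  have h55 := check_append' h54 hchk55 (by norm_num) 76 (by norm_num)
  have h56 := check_append' h55 hchk56 (by norm_num) 77 (by norm_num)
  have h57 := check_append' h56 hchk57 (by norm_num) 78 (by norm_num)
  have h58 := check_append' h57 hchk58 (by norm_num) 79 (by norm_num)
  have h59 := check_append' h58 hchk59 (by norm_num) 80 (by norm_num)
  have h60 := check_append' h59 hchk60 (by norm_num) 81 (by norm_num)
  have h61 := check_append' h60 hchk61 (by norm_num) 83 (by norm_num)
  have h62 := check_append' h61 hchk62 (by norm_num) 90 (by norm_num)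
  have h63 := check_append' h62 hchk63 (by norm_num) 91 (by norm_num)
  have h64 := check_append' h63 hchk64 (by norm_num) 92 (by norm_num)
  have h65 := check_append' h64 hchk65 (by norm_num) 93 (by norm_num)
  have h66 := check_append' h65 hchk66 (by norm_num) 94 (by norm_num)
  have h67 := check_append' h66 hchk67 (by norm_num) 95 (by norm_num)
  have h68 := check_append' h67 hchk68 (by norm_num) 97 (by norm_num)
  have h69 := check_append' h68 hchk69 (by norm_num) 105 (by norm_num)
  have h70 := check_append' h69 hchk70 (by norm_num) 106 (by norm_num)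
  have h71 := check_append' h70 hchk71 (by norm_num) 107 (by norm_num)
  have h72 := check_append' h71 hchk72 (by norm_num) 108 (by norm_num)
  have h73 := check_append' h72 hchk73 (by norm_num) 109 (by norm_num)
  have h74 := check_append' h73 hchk74 (by norm_num) 111 (by norm_num)
  have h75 := check_append' h74 hchk75 (by norm_num) 120 (by norm_num)
  have h76 := check_append' h75 hchk76 (by norm_num) 121 (by norm_num)
  have h77 := check_append' h76 hchk77 (by norm_num) 122 (by norm_num)
  have h78 := check_append' h77 hchk78 (by norm_num) 123 (by norm_num)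
  have h79 := check_append' h78 hchk79 (by norm_num) 125 (by norm_num)
  have h80 := check_append' h79 hchk80 (by norm_num) 135 (by norm_num)
  have h81 := check_append' h80 hchk81 (by norm_num) 136 (by norm_num)
  have h82 := check_append' h81 hchk82 (by norm_num) 137 (by norm_num)
  have h83 := check_append' h82 hchk83 (by norm_num) 139 (by norm_num)
  have h84 := check_append' h83 hchk84 (by norm_num) 151 (by norm_num)
  have h85 := check_append' h84 hchk85 (by norm_num) 153 (by norm_num)
  have h86 := check_append' h85 hchk86 (by norm_num) 166 (by norm_num)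
  have h87 := check_append' h86 hchk87 (by norm_num) 180 (by norm_num)
  have h88 := check_append' h87 hchk88 (by norm_num) 196 (by norm_num)
  have h89 := check_append' h88 hchk89 (by norm_num) 225 (by norm_num)
  exact h89

theorem hpit1 : pit 46 15 (smE 1 Ld1 (.v 0) (.v 1) (.v 2) (.v 3) (.v 0)) (tgE 1 Tg1) = true := by
  decide +kernel

theorem hdeg1 : Ld1.all (fun t => t.2.1 + t.2.2.1 + t.2.2.2.1 + t.2.2.2.2 == 1) = true := by
  decide +kernel

theorem hpit2 : pit 55 15 (smE 2 Ld2 (.v 0) (.v 1) (.v 2) (.v 3) (.v 0)) (tgE 2 Tg2) = true := by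
  decide +kernel

theorem hdeg2 : Ld2.all (fun t => t.2.1 + t.2.2.1 + t.2.2.2.1 + t.2.2.2.2 == 2) = true := by
  decide +kernel

theorem hpit3 : pit 61 15 (smE 3 Ld3 (.v 0) (.v 1) (.v 2) (.v 3) (.v 0)) (tgE 3 Tg3) = true := by
  decide +kernel

theorem hdeg3 : Ld3.all (fun t => t.2.1 + t.2.2.1 + t.2.2.2.1 + t.2.2.2.2 == 3) = true := by
  decide +kernel

theorem hpit4 : pit 67 15 (smE 4 Ld4 (.v 0) (.v 1) (.v 2) (.v 3) (.v 0)) (tgE 4 Tg4) = true := by
  decide +kernel

theorem hdeg4 : Ld4.all (fun t => t.2.1 + t.2.2.1 + t.2.2.2.1 + t.2.2.2.2 == 4) = true := by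
  decide +kernel

theorem hpit5 : pit 72 15 (smE 5 Ld5 (.v 0) (.v 1) (.v 2) (.v 3) (.v 0)) (tgE 5 Tg5) = true := by
  decide +kernel

theorem hdeg5 : Ld5.all (fun t => t.2.1 + t.2.2.1 + t.2.2.2.1 + t.2.2.2.2 == 5) = true := by
  decide +kernel

theorem hpit6 : pit 77 15 (smE 6 Ld6 (.v 0) (.v 1) (.v 2) (.v 3) (.v 0)) (tgE 6 Tg6) = true := by
  decide +kernel

theorem hdeg6 : Ld6.all (fun t => t.2.1 + t.2.2.1 + t.2.2.2.1 + t.2.2.2.2 == 6) = true := by
  decide +kernel

theorem hpit7 : pit 81 15 (smE 7 Ld7 (.v 0) (.v 1) (.v 2) (.v 3) (.v 0)) (tgE 7 Tg7) = true := by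
  decide +kernel

theorem hdeg7 : Ld7.all (fun t => t.2.1 + t.2.2.1 + t.2.2.2.1 + t.2.2.2.2 == 7) = true := by
  decide +kernel

theorem hpit8 : pit 85 15 (smE 8 Ld8 (.v 0) (.v 1) (.v 2) (.v 3) (.v 0)) (tgE 8 Tg8) = true := by
  decide +kernel

theorem hdeg8 : Ld8.all (fun t => t.2.1 + t.2.2.1 + t.2.2.2.1 + t.2.2.2.2 == 8) = true := by
  decide +kernel

theorem hpit9 : pit 88 15 (smE 9 Ld9 (.v 0) (.v 1) (.v 2) (.v 3) (.v 0)) (tgE 9 Tg9) = true := by
  decide +kernel

theorem hdeg9 : Ld9.all (fun t => t.2.1 + t.2.2.1 + t.2.2.2.1 + t.2.2.2.2 == 9) = true := by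
  decide +kernel

theorem hpit10 : pit 90 15 (smE 10 Ld10 (.v 0) (.v 1) (.v 2) (.v 3) (.v 0)) (tgE 10 Tg10) = true := by
  decide +kernel

theorem hdeg10 : Ld10.all (fun t => t.2.1 + t.2.2.1 + t.2.2.2.1 + t.2.2.2.2 == 10) = true := by
  decide +kernel

theorem hpit11 : pit 92 15 (smE 11 Ld11 (.v 0) (.v 1) (.v 2) (.v 3) (.v 0)) (tgE 11 Tg11) = true := by
  decide +kernel

theorem hdeg11 : Ld11.all (fun t => t.2.1 + t.2.2.1 + t.2.2.2.1 + t.2.2.2.2 == 11) = true := by
  decide +kernel

theorem hpit12 : pit 94 15 (smE 12 Ld12 (.v 0) (.v 1) (.v 2) (.v 3) (.v 0)) (tgE 12 Tg12) = true := by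
  decide +kernel

theorem hdeg12 : Ld12.all (fun t => t.2.1 + t.2.2.1 + t.2.2.2.1 + t.2.2.2.2 == 12) = true := by
  decide +kernel

theorem hpit13 : pit 94 15 (smE 13 Ld13 (.v 0) (.v 1) (.v 2) (.v 3) (.v 0)) (tgE 13 Tg13) = true := by
  decide +kernel

theorem hdeg13 : Ld13.all (fun t => t.2.1 + t.2.2.1 + t.2.2.2.1 + t.2.2.2.2 == 13) = true := by
  decide +kernel

theorem hpit14 : pit 94 15 (smE 14 Ld14 (.v 0) (.v 1) (.v 2) (.v 3) (.v 0)) (tgE 14 Tg14) = true := by
  decide +kernel

theorem hdeg14 : Ld14.all (fun t => t.2.1 + t.2.2.1 + t.2.2.2.1 + t.2.2.2.2 == 14) = true := by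
  decide +kernel

theorem hpitXp : pit4 35 7 (smE 14 Xp (.v 0) (.v 1) (.v 2) (.v 3) (.c 1)) tXp = true := by
  decide +kernel

theorem hpitXc : pit4 39 7 (smE 14 Xc (.v 0) (.v 1) (.v 2) (.v 3) (.c 1)) tXc = true := by
  decide +kernel

/-! positivity of the multiplier -/

theorem cgood : good 14 0 76 (oneE 14 0 1 Xc) = true := by decide +kernel
theorem cbnd : 2 * bnd (oneE 14 0 1 Xc) < 2 ^ 76 := by decide +kernel
theorem cchk : check 76 15 14 (oneE 14 0 1 Xc) 0 (15 * 15) = true := by decide +kernel

end Vale.Agent.P154.T4
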